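import Mathlib
import Crest.Agent.DetLB.Indep

/-! Rank lemmas and the operator-valued flattening of a polynomial. -/

set_option linter.unusedSectionVars false

namespace Crest.Agent.Depth5

open Finset Matrix MvPolynomial Crest.Agent.DetLB

section rank

variable {K : Type*} [Field K] {m n : Type*} [Fintype m] [Fintype n]

lemma rank_add_le' (A B : Matrix m n K) : (A + B).rank ≤ A.rank + B.rank := by
  rw [rank, rank, rank, mulVecLin_add]
  refine le_trans (Submodule.finrank_mono ?_) (Submodule.finrank_add_le_finrank_add_finrank _ _)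
  rintro _ ⟨x, rfl⟩
  exact Submodule.add_mem_sup ⟨x, rfl⟩ ⟨x, rfl⟩

lemma rank_sum_le' {I : Type*} (s : Finset I) (A : I → Matrix m n K) :
    ((∑ i ∈ s, A i).rank : ℝ) ≤ ∑ i ∈ s, ((A i).rank : ℝ) := by
  classical
  induction s using Finset.induction_on with
  | empty => simp
  | insert i s hi ih =>
    rw [sum_insert hi, sum_insert hi]
    have := rank_add_le' (A i) (∑ i ∈ s, A i)
    have h : ((A i + ∑ i ∈ s, A i).rank : ℝ) ≤ (A i).rank + (∑ i ∈ s, A i).rank := by
      exact_mod_cast this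
    linarith

lemma rank_smul_le' (c : K) (A : Matrix m n K) : (c • A).rank ≤ A.rank := by
  by_cases hc : c = 0
  · simp [hc]
  · exact (rank_smul_of_mem_nonZeroDivisors A (mem_nonZeroDivisors_of_ne_zero hc)).le

lemma rank_cast_le [CharZero K] (N : Matrix m n ℤ) :
    (N.map (Int.cast : ℤ → ℝ)).rank ≤ (N.map (Int.cast : ℤ → K)).rank := by
  obtain ⟨κ, a, ha, hs, hl⟩ := exists_linearIndependent' ℝ (N.map (Int.cast : ℤ → ℝ)).col
  have : Finite κ := Finite.of_injective a ha
  have := Fintype.ofFinite κ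
  rw [rank_eq_finrank_span_cols, rank_eq_finrank_span_cols, ← hs,
    finrank_span_eq_card hl]
  have e1 : (N.map (Int.cast : ℤ → ℝ)).col ∘ a = fun k => algebraMap ℤ ℝ ∘ N.col (a k) := by
    ext; simp
  have e2 : (N.map (Int.cast : ℤ → K)).col ∘ a = fun k => algebraMap ℤ K ∘ N.col (a k) := by
    ext; simp
  rw [e1, linearIndependent_algebraMap_comp_iff] at hl
  have h2 : LinearIndependent K ((N.map (Int.cast : ℤ → K)).col ∘ a) := by
    rwa [e2, linearIndependent_algebraMap_comp_iff]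
  rw [← finrank_span_eq_card h2]
  exact Submodule.finrank_mono (Submodule.span_mono (Set.range_comp_subset_range _ _))

lemma trace_sq_le_aux {A : Matrix n n ℝ} (hA : A.IsHermitian) :
    A.trace ^ 2 ≤ A.rank * (A * A).trace ∧ 0 ≤ (A * A).trace := by
  classical
  have h1 := hA.trace_eq_sum_eigenvalues
  have h2 : (A * A).trace = ∑ i, hA.eigenvalues i ^ 2 := by
    conv_lhs => rw [hA.spectral_theorem, ← map_mul, Unitary.conjStarAlgAut_apply, trace_mul_comm,
      ← Matrix.mul_assoc]
    simp [sq]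
  rw [h1, h2, hA.rank_eq_card_non_zero_eigs, Fintype.card_subtype]
  refine ⟨?_, by positivity⟩
  have h4 := sq_sum_le_card_mul_sum_sq (s := univ.filter fun i => hA.eigenvalues i ≠ 0)
    (f := hA.eigenvalues)
  rw [sum_filter_ne_zero, sum_filter_of_ne (by simp)] at h4
  simpa using h4

lemma trace_sq_le (M : Matrix m n ℝ) :
    (Mᵀ * M).trace ^ 2 ≤ M.rank * (Mᵀ * M * (Mᵀ * M)).trace := by
  have hA : (Mᵀ * M).IsHermitian := by
    simpa using isHermitian_conjTranspose_mul_self M
  have h3 : ((Mᵀ * M).rank : ℝ) ≤ M.rank := Nat.cast_le.mpr (rank_mul_le_right Mᵀ M)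
  exact (trace_sq_le_aux hA).1.trans (mul_le_mul_of_nonneg_right h3 (trace_sq_le_aux hA).2)

end rank

variable {ι : Type} [Fintype ι] [DecidableEq ι] (Y : ι → Prop) [DecidablePred Y]
  {K : Type*} [Field K]

noncomputable instance (priority := high) fintypeMI (q : ℕ) : Fintype (MI ι q) :=
  Fintype.ofFinite _

/-- states -/
abbrev St (ι : Type) [Fintype ι] [DecidableEq ι] (p l : ℕ) : Type := MI ι p × MI ι l

/-- the monomial `m` moves state `(α, β)` to `(α', β')` -/
def Mv (m α' β' α β : ι →₀ ℕ) : Prop :=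
  α' + m.filter Y = α ∧ β' = β + m.filter fun v => ¬ Y v

noncomputable instance (m α' β' α β : ι →₀ ℕ) : Decidable (Mv Y m α' β' α β) := by
  unfold Mv; infer_instance

/-- the flattening -/
noncomputable def Mat (p' l' p l : ℕ) :
    MvPolynomial ι K →ₗ[K] Matrix (St ι p' l') (St ι p l) K :=
  (basisMonomials ι K).constr K fun m => Matrix.of fun x' x =>
    if Mv Y m x'.1.1 x'.2.1 x.1.1 x.2.1 then 1 else 0

lemma Mat_monomial (p' l' p l : ℕ) (m : ι →₀ ℕ) (c : K) (x' : St ι p' l') (x : St ι p l) :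
    Mat Y p' l' p l (monomial m c) x' x = if Mv Y m x'.1.1 x'.2.1 x.1.1 x.2.1 then c else 0 := by
  have : (monomial m c : MvPolynomial ι K) = c • basisMonomials ι K m := by
    simp [smul_monomial]
  rw [this, map_smul, Mat, Module.Basis.constr_basis]
  simp

/-- bidegree -/
def w (v : ι) : ℕ × ℕ := if Y v then (1, 0) else (0, 1)

lemma weight_w (m : ι →₀ ℕ) : Finsupp.weight (w Y) m
    = (∑ v, m.filter Y v, ∑ v, m.filter (fun v => ¬ Y v) v) := by
  rw [Finsupp.weight_apply, Finsupp.sum_fintype _ _ (by simp)]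
  ext
  · simp only [Prod.fst_sum, Finsupp.filter_apply, w]
    exact sum_congr rfl fun v _ => by split_ifs <;> simp
  · simp only [Prod.snd_sum, Finsupp.filter_apply, w]
    exact sum_congr rfl fun v _ => by split_ifs <;> simp

lemma Mv_deg {p' l' p l : ℕ} {m : ι →₀ ℕ} {x' : St ι p' l'} {x : St ι p l}
    (h : Mv Y m x'.1.1 x'.2.1 x.1.1 x.2.1) {A B : ℕ} (hm : Finsupp.weight (w Y) m = (A, B)) :
    p' + A = p ∧ l' = l + B := by
  rw [weight_w, Prod.mk.injEq] at hm
  have h1 := MI_sum x.1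
  have h2 := MI_sum x'.2
  rw [← h.1] at h1
  rw [h.2] at h2
  simp only [Finsupp.add_apply, sum_add_distrib, MI_sum] at h1 h2
  omega

lemma Mat_eq_zero {p' l' p l A B : ℕ} {f : MvPolynomial ι K}
    (hf : IsWeightedHomogeneous (w Y) f (A, B)) (h : ¬ (p' + A = p ∧ l' = l + B)) :
    Mat Y p' l' p l f = 0 := by
  rw [f.as_sum, map_sum]
  refine sum_eq_zero fun m hm => ?_
  ext x' x
  rw [Mat_monomial, if_neg fun h1 => h (Mv_deg Y h1 (hf (mem_support_iff.mp hm))), Matrix.zero_apply]

lemma Mat_mul {p' l' p l A B : ℕ} (g : MvPolynomial ι K) {f : MvPolynomial ι K}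
    (hf : IsWeightedHomogeneous (w Y) f (A, B)) :
    Mat Y p' l' (p + A) l (g * f) = Mat Y p' l' p (l + B) g * Mat Y p (l + B) (p + A) l f := by
  rw [f.as_sum, g.as_sum, sum_mul_sum]
  simp only [map_sum, Matrix.sum_mul, Matrix.mul_sum]
  rw [sum_comm]
  refine sum_congr rfl fun m hm => sum_congr rfl fun m' _ => ?_
  have hw := hf (mem_support_iff.mp hm)
  rw [weight_w, Prod.mk.injEq] at hw
  ext x' x
  simp only [monomial_mul, Matrix.mul_apply, Mat_monomial]
  split_ifs with h
  · obtain ⟨h1, h2⟩ := h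
    rw [Finsupp.filter_add] at h1 h2
    have e1 : ∑ v, (x'.1.1 + m'.filter Y) v = p := by
      have := MI_sum x.1
      rw [← h1, ← add_assoc] at this
      simp only [Finsupp.add_apply, sum_add_distrib] at this ⊢
      omega
    have e2 : ∑ v, (x.2.1 + m.filter fun v => ¬ Y v) v = l + B := by
      simp only [Finsupp.add_apply, sum_add_distrib, MI_sum, hw.2]
    rw [sum_eq_single (⟨_, mem_finsuppAntidiag.mpr ⟨e1, subset_univ _⟩⟩,
      ⟨_, mem_finsuppAntidiag.mpr ⟨e2, subset_univ _⟩⟩) _ (by simp), if_pos, if_pos]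
    · exact ⟨by rw [← h1, add_assoc], rfl⟩
    · exact ⟨rfl, by rw [h2, add_assoc, add_comm (m.filter _)]⟩
    · intro x'' _ hne
      split_ifs with h3 h4
      · exact absurd (Prod.ext (Subtype.ext h3.1.symm) (Subtype.ext h4.2)) hne
      all_goals simp
  · refine (sum_eq_zero fun x'' _ => ?_).symm
    split_ifs with h3 h4
    · refine absurd ⟨?_, ?_⟩ h
      · rw [Finsupp.filter_add, ← add_assoc, h3.1, h4.1]
      · rw [Finsupp.filter_add, h3.2, h4.2, add_assoc, add_comm (m.filter _)]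
    all_goals simp

lemma hom_split {f : MvPolynomial ι K} {D : ℕ} (hf : f.IsHomogeneous D) :
    f = ∑ a ∈ range (D + 1), weightedHomogeneousComponent (w Y) (a, D - a) f := by
  ext m
  simp only [coeff_sum, coeff_weightedHomogeneousComponent]
  by_cases hm : coeff m f = 0
  · simp [hm]
  have h1 := hf hm
  have h2 : ∑ v, m.filter Y v + ∑ v, m.filter (fun v => ¬ Y v) v = D := by
    rw [← sum_add_distrib, ← h1, Finsupp.weight_apply, Finsupp.sum_fintype _ _ (by simp)]
    refine sum_congr rfl fun v _ => ?_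
    simp only [Finsupp.filter_apply]
    split_ifs <;> simp
  rw [sum_eq_single (∑ v, m.filter Y v), if_pos]
  · rw [weight_w]; congr 1; omega
  · intro a _ ha
    rw [if_neg]
    rw [weight_w, Prod.mk.injEq]
    exact fun h => ha h.1.symm
  · intro h; exact absurd (mem_range.mpr (by omega)) h

/-- number of monomials -/
noncomputable def Dm (ι : Type) [Fintype ι] [DecidableEq ι] (q : ℕ) : ℕ := Fintype.card (MI ι q)

lemma rank_mul_le_card {m n o : Type*} [Fintype n] [Fintype o] (A : Matrix m n K)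
    (B : Matrix n o K) : (A * B).rank ≤ Fintype.card n :=
  (rank_mul_le_left A B).trans (rank_le_card_width A)

lemma rank_Mat_mul {p' l' p l A B q : ℕ} (g : MvPolynomial ι K) {f : MvPolynomial ι K}
    (hf : IsWeightedHomogeneous (w Y) f (A, B)) (hq : q + A = p) :
    (Mat Y p' l' p l (g * f)).rank ≤ Dm ι q * Dm ι (l + B) := by
  subst hq
  rw [Mat_mul Y g hf]
  exact (rank_mul_le_card _ _).trans_eq (Fintype.card_prod _ _)

/-- the factor bound -/
noncomputable def Sf (L L' : ℝ) (D : ℕ) : ℝ :=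
  ∑ a ∈ range (D + 1), Real.exp (-|a * L - (D - a : ℕ) * L'| / 2)

theorem rank_prod_le {I : Type*} [Fintype I] (Q : I → MvPolynomial ι K) (D : I → ℕ)
    (hQ : ∀ i, (Q i).IsHomogeneous (D i)) (p l a b : ℕ) (L L' : ℝ)
    (hY : ∀ q A, q + A = p + a → (Dm ι q : ℝ) ≤ Dm ι (p + a) * Real.exp (-(A * L)))
    (hZ : ∀ B, (Dm ι (l + B) : ℝ) ≤ Dm ι l * Real.exp (B * L')) :
    ((Mat Y p (l + b) (p + a) l (∏ i, Q i)).rank : ℝ) ≤ if ∑ i, D i = a + b then
      Dm ι (p + a) * Dm ι l * Real.exp (-(a * L - b * L') / 2) * ∏ i, Sf L L' (D i) else 0 := by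
  classical
  let c : I → ℕ → MvPolynomial ι K := fun i j =>
    weightedHomogeneousComponent (w Y) (j, D i - j) (Q i)
  have hc : ∀ i j, IsWeightedHomogeneous (w Y) (c i j) (j, D i - j) := fun i j =>
    weightedHomogeneousComponent_isWeightedHomogeneous _ _
  rw [prod_congr rfl fun i _ => hom_split Y (hQ i), prod_univ_sum, map_sum]
  refine (rank_sum_le' _ _).trans ?_
  have key : ∀ j ∈ Fintype.piFinset fun i => range (D i + 1),
      ((Mat Y p (l + b) (p + a) l (∏ i, c i (j i))).rank : ℝ) ≤ if ∑ i, D i = a + b then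
        Dm ι (p + a) * Dm ι l * Real.exp (-(a * L - b * L') / 2)
          * ∏ i, Real.exp (-|j i * L - (D i - j i : ℕ) * L'| / 2) else 0 := by
    intro j hj
    have hj' : ∀ i, j i ≤ D i := fun i => Nat.lt_succ_iff.mp (mem_range.mp
      (Fintype.mem_piFinset.mp hj i))
    have hs : ∀ s : Finset I, IsWeightedHomogeneous (w Y) (∏ i ∈ s, c i (j i))
        (∑ i ∈ s, j i, ∑ i ∈ s, (D i - j i)) := by
      intro s
      have := IsWeightedHomogeneous.prod s _ _ fun i _ => hc i (j i)
      rwa [← prod_mk_sum] at this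
    by_cases h0 : p + ∑ i, j i = p + a ∧ l + b = l + ∑ i, (D i - j i)
    swap
    · rw [Mat_eq_zero Y (hs univ) h0, rank_zero, Nat.cast_zero]
      split_ifs
      · exact mul_nonneg (mul_nonneg (mul_nonneg (Nat.cast_nonneg _) (Nat.cast_nonneg _))
          (Real.exp_pos _).le) (prod_nonneg fun _ _ => (Real.exp_pos _).le)
      · rfl
    have ha : ∑ i, j i = a := by omega
    have hb : ∑ i, (D i - j i) = b := by omega
    have hab : ∑ i, D i = a + b := by
      rw [← ha, ← hb, ← sum_add_distrib]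
      exact sum_congr rfl fun i _ => (Nat.add_sub_cancel' (hj' i)).symm
    rw [if_pos hab]
    let x : I → ℝ := fun i => j i * L - (D i - j i : ℕ) * L'
    let J := univ.filter fun i => 0 ≤ x i
    have hA : ∑ i ∈ J, j i ≤ a := ha ▸ sum_le_sum_of_subset (subset_univ _)
    obtain ⟨q, hq⟩ : ∃ q, q + ∑ i ∈ J, j i = p + a := ⟨p + a - ∑ i ∈ J, j i, by omega⟩
    have h1 := hY q _ hq
    have h2 := hZ (∑ i ∈ J, (D i - j i))
    have h3 : (Mat Y p (l + b) (p + a) l (∏ i, c i (j i))).rank
        ≤ Dm ι q * Dm ι (l + ∑ i ∈ J, (D i - j i)) := by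
      rw [← prod_compl_mul_prod J]
      exact rank_Mat_mul Y _ (hs J) hq
    calc _ ≤ (Dm ι q : ℝ) * Dm ι (l + ∑ i ∈ J, (D i - j i)) := by
          rw [← Nat.cast_mul]; exact Nat.cast_le.mpr h3
      _ ≤ _ := mul_le_mul h1 h2 (Nat.cast_nonneg _)
          (mul_nonneg (Nat.cast_nonneg _) (Real.exp_pos _).le)
      _ = _ := by
        rw [← Real.exp_sum, mul_mul_mul_comm, mul_assoc (_ * _ : ℝ), ← Real.exp_add, ← Real.exp_add]
        congr 2
        have e1 : (a : ℝ) * L - b * L' = ∑ i, x i := by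
          rw [← ha, ← hb]; simp [x, sum_mul]
        have e2 : -((∑ i ∈ J, j i : ℕ) * L) + (∑ i ∈ J, (D i - j i) : ℕ) * L' = -∑ i ∈ J, x i := by
          simp only [x, Nat.cast_sum, sum_mul, sum_sub_distrib]; ring
        rw [e1, e2, sum_filter, ← sum_neg_distrib, ← sum_neg_distrib, sum_div, ← sum_add_distrib]
        refine sum_congr rfl fun i _ => ?_
        change _ = -x i / 2 + -|x i| / 2
        split_ifs with h
        · rw [abs_of_nonneg h]; ring
        · rw [abs_of_neg (not_le.mp h)]; ring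
  refine (sum_le_sum key).trans (le_of_eq ?_)
  split_ifs
  · simp only [Sf]
    rw [prod_univ_sum, mul_sum]
  · simp

end Crest.Agent.Depth5
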