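import Mathlib
import Crest.Agent.Depth5.Rank

/-! The flattening of the iterated matrix product has almost full rank. -/

set_option linter.unusedSectionVars false

namespace Crest.Agent.Depth5

open Finset Matrix MvPolynomial Crest.Agent.DetLB

section dims

variable {ι : Type} [Fintype ι] [DecidableEq ι] [Nonempty ι]

lemma Dm_succ (q : ℕ) :
    (Dm ι (q + 1) : ℝ) = Dm ι q * (1 + (Fintype.card ι - 1 : ℝ) / (q + 1)) := by
  obtain ⟨N, hN⟩ : ∃ N, Fintype.card ι = N + 1 :=
    ⟨Fintype.card ι - 1, by have := Fintype.card_pos (α := ι); omega⟩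
  simp only [Dm, Fintype.card_coe, card_finsuppAntidiag_nat_eq_choose, card_univ, hN]
  have h := Nat.add_one_mul_choose_eq (N + q) q
  rw [show N + 1 + (q + 1) - 1 = N + q + 1 by omega, show N + 1 + q - 1 = N + q by omega]
  have h' : ((N : ℝ) + q + 1) * (N + q).choose q = (N + q + 1).choose (q + 1) * (q + 1) := by
    exact_mod_cast h
  field_simp
  push_cast
  linarith

lemma Dm_pos (q : ℕ) : (0 : ℝ) < Dm ι q := by
  have h : (1 : ℝ) ≤ Fintype.card ι := by exact_mod_cast Fintype.card_pos (α := ι)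
  induction q with
  | zero => simp [Dm]
  | succ q ih =>
    rw [Dm_succ]
    have : 0 ≤ (Fintype.card ι - 1 : ℝ) / (q + 1) := div_nonneg (by linarith) (by positivity)
    positivity

lemma Dm_down {P : ℕ} {L : ℝ} (hL : Real.exp L ≤ 1 + (Fintype.card ι - 1 : ℝ) / P) (A : ℕ) :
    ∀ q, q + A ≤ P → (Dm ι q : ℝ) ≤ Dm ι (q + A) * Real.exp (-(A * L)) := by
  have h : (1 : ℝ) ≤ Fintype.card ι := by exact_mod_cast Fintype.card_pos (α := ι)
  induction A with
  | zero => simp
  | succ A ih =>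
    intro q hq
    refine (ih q (by omega)).trans ?_
    rw [← add_assoc, Dm_succ, mul_assoc]
    refine mul_le_mul_of_nonneg_left ?_ (Nat.cast_nonneg _)
    have h1 : (Fintype.card ι - 1 : ℝ) / P ≤ (Fintype.card ι - 1 : ℝ) / ((q + A : ℕ) + 1) :=
      div_le_div_of_nonneg_left (by linarith) (by positivity) (by exact_mod_cast hq)
    calc Real.exp (-(A * L)) = Real.exp L * Real.exp (-((A + 1 : ℕ) * L)) := by
          rw [← Real.exp_add]; congr 1; push_cast; ring
      _ ≤ _ := by gcongr; linarith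

lemma Dm_up {l : ℕ} {L : ℝ} (hL : 1 + (Fintype.card ι - 1 : ℝ) / (l + 1) ≤ Real.exp L) (B : ℕ) :
    (Dm ι (l + B) : ℝ) ≤ Dm ι l * Real.exp (B * L) := by
  have h : (1 : ℝ) ≤ Fintype.card ι := by exact_mod_cast Fintype.card_pos (α := ι)
  induction B with
  | zero => simp
  | succ B ih =>
    rw [← add_assoc, Dm_succ]
    have h1 : (Fintype.card ι - 1 : ℝ) / ((l + B : ℕ) + 1) ≤ (Fintype.card ι - 1 : ℝ) / (l + 1) :=
      div_le_div_of_nonneg_left (by linarith) (by positivity) (by push_cast; linarith)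
    have h2 : 0 ≤ (Fintype.card ι - 1 : ℝ) / ((l + B : ℕ) + 1) :=
      div_nonneg (by linarith) (by positivity)
    calc _ ≤ (Dm ι l * Real.exp (B * L)) * Real.exp L :=
          mul_le_mul ih (by linarith) (by linarith) (by positivity)
      _ = _ := by rw [mul_assoc, ← Real.exp_add]; congr 2; push_cast; ring

lemma card_ge_le {P q : ℕ} (μ : ι →₀ ℕ) (hq : q + ∑ v, μ v = P) :
    (univ.filter fun x : MI ι P => μ ≤ x.1).card ≤ Dm ι q := by
  refine card_le_card_of_injOn (fun x => if h : μ ≤ x.1 then ⟨x.1 - μ, mem_finsuppAntidiag.mpr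
    ⟨?_, subset_univ _⟩⟩ else MIadd (MI0 ι) (MI0 ι) |> fun _ =>
      ⟨Finsupp.single (Classical.arbitrary ι) q, by simp [Finsupp.single_apply]⟩)
    (fun _ _ => mem_univ _) fun x hx y hy h => ?_
  · have h1 := MI_sum x
    rw [← tsub_add_cancel_of_le h] at h1
    simp only [Finsupp.add_apply, sum_add_distrib] at h1
    change ∑ v, (x.1 - μ) v = q
    omega
  · have hx' : μ ≤ x.1 := by simpa using hx
    have hy' : μ ≤ y.1 := by simpa using hy
    simp only [hx', hy', dif_pos, Subtype.mk.injEq] at h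
    exact Subtype.ext ((tsub_left_inj hx' hy').mp h)

end dims

section generic

variable {m n : Type} [Fintype m] [Fintype n]

lemma trace4_le {C₁ C₂ C₃ C₄ : Matrix m n ℝ} (p₁ : ∀ a b, 0 ≤ C₁ a b) (p₂ : ∀ a b, 0 ≤ C₂ a b)
    (p₃ : ∀ a b, C₃ a b ≤ 1) (p₄ : ∀ a b, 0 ≤ C₄ a b) (c₁ : ∀ b, ∑ a, C₁ a b ≤ 1)
    (c₄ : ∀ b, ∑ a, C₄ a b ≤ 1) (r₂ : ∀ a, ∑ b, C₂ a b ≤ 1) :
    ∃ T : Finset n, (∀ x ∈ T, ∃ x₂ x' x₃, C₁ x' x ≠ 0 ∧ C₂ x' x₂ ≠ 0
      ∧ C₃ x₃ x₂ ≠ 0 ∧ C₄ x₃ x ≠ 0) ∧ (C₁ᵀ * C₂ * (C₃ᵀ * C₄)).trace ≤ T.card := by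
  classical
  refine ⟨univ.filter fun x => ∃ x₂ x' x₃, C₁ x' x ≠ 0 ∧ C₂ x' x₂ ≠ 0
      ∧ C₃ x₃ x₂ ≠ 0 ∧ C₄ x₃ x ≠ 0, fun x hx => (mem_filter.mp hx).2, ?_⟩
  rw [← sum_boole]
  refine sum_le_sum fun x _ => ?_
  simp only [diag_apply, Matrix.mul_apply, transpose_apply]
  split_ifs with h
  · calc _ ≤ ∑ x₂, (∑ x', C₁ x' x * C₂ x' x₂) * 1 := by
          refine sum_le_sum fun x₂ _ => mul_le_mul_of_nonneg_left ?_
            (sum_nonneg fun _ _ => mul_nonneg (p₁ _ _) (p₂ _ _))
          refine le_trans (sum_le_sum fun x₃ _ => ?_) (c₄ x)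
          exact mul_le_of_le_one_left (p₄ _ _) (p₃ _ _)
      _ ≤ ∑ x', C₁ x' x := by
          simp only [mul_one]
          rw [sum_comm]
          refine sum_le_sum fun x' _ => ?_
          rw [← mul_sum]
          exact mul_le_of_le_one_right (p₁ _ _) (r₂ x')
      _ ≤ 1 := c₁ x
  · refine le_of_eq (sum_eq_zero fun x₂ _ => ?_)
    rw [sum_mul_sum]
    refine sum_eq_zero fun x' _ => sum_eq_zero fun x₃ _ => ?_
    by_contra h0
    simp only [mul_eq_zero, not_or] at h0
    exact h ⟨x₂, x', x₃, h0.1.1, h0.1.2, h0.2.1, h0.2.2⟩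

lemma sum_le_trace {I : Type} (s : Finset I) (C : I → Matrix m n ℝ) (N : Matrix m n ℤ)
    (h : N.map Int.cast = ∑ v ∈ s, C v) : ∑ v ∈ s, ∑ x, ∑ x', C v x' x
      ≤ ((N.map (Int.cast : ℤ → ℝ))ᵀ * N.map (Int.cast : ℤ → ℝ)).trace := by
  calc _ = ∑ x, ∑ x', ((N x' x : ℤ) : ℝ) := by
        rw [sum_comm]
        refine sum_congr rfl fun x _ => ?_
        rw [sum_comm]
        refine sum_congr rfl fun x' _ => ?_
        rw [← Matrix.sum_apply, ← h, map_apply]
    _ ≤ _ := by
        refine sum_le_sum fun x _ => ?_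
        simp only [diag_apply, Matrix.mul_apply, transpose_apply, map_apply]
        refine sum_le_sum fun x' _ => ?_
        exact_mod_cast Int.le_self_sq (N x' x) |>.trans_eq (sq _)

lemma trace4_sum {I : Type} (s : Finset I) (C : I → Matrix m n ℝ) :
    ((∑ v ∈ s, C v)ᵀ * (∑ v ∈ s, C v) * ((∑ v ∈ s, C v)ᵀ * ∑ v ∈ s, C v)).trace
      = ∑ v₁ ∈ s, ∑ v₃ ∈ s, ∑ v₂ ∈ s, ∑ v₄ ∈ s, ((C v₁)ᵀ * C v₂ * ((C v₃)ᵀ * C v₄)).trace := by
  rw [transpose_sum, Matrix.sum_mul, Matrix.sum_mul, trace_sum]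
  refine sum_congr rfl fun v₁ _ => ?_
  rw [Matrix.mul_sum _ _ ((C v₁)ᵀ * _), trace_sum]
  refine sum_congr rfl fun v₃ _ => ?_
  rw [Matrix.mul_sum _ _ (C v₁)ᵀ, Matrix.sum_mul, trace_sum]
  refine sum_congr rfl fun v₂ _ => ?_
  rw [Matrix.mul_sum, Matrix.mul_sum, trace_sum]

end generic

section paths

variable {d n : ℕ} [NeZero n]

/-- end vertices -/
def IsEnd (k : Fin (d + 1)) : Prop := k = 0 ∨ k = Fin.last d

instance (k : Fin (d + 1)) : Decidable (IsEnd k) := by unfold IsEnd; infer_instance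

/-- source-to-sink paths -/
def Paths (d n : ℕ) [NeZero n] : Finset (Fin (d + 1) → Fin n) :=
  Fintype.piFinset fun k => if IsEnd k then {0} else univ

lemma mem_Paths {v : Fin (d + 1) → Fin n} : v ∈ Paths d n ↔ v 0 = 0 ∧ v (Fin.last d) = 0 := by
  simp only [Paths, Fintype.mem_piFinset]
  refine ⟨fun h => ⟨by simpa [IsEnd] using h 0, by simpa [IsEnd] using h (Fin.last d)⟩, ?_⟩
  rintro ⟨h1, h2⟩ k
  split_ifs with h
  · rcases h with rfl | rfl <;> simpa
  · exact mem_univ _

lemma card_Paths : ((Paths d n).card : ℝ) = ∏ k : Fin (d + 1), if IsEnd k then 1 else (n : ℝ) := by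
  rw [Paths, Fintype.card_piFinset, Nat.cast_prod]
  exact prod_congr rfl fun k _ => by split_ifs <;> simp

attribute [irreducible] Paths

/-- edge of a path in a layer -/
def edge (v : Fin (d + 1) → Fin n) (k : Fin d) : Fin n × Fin n := (v k.castSucc, v k.succ)

/-- monomial of a path -/
noncomputable def mon (v : Fin (d + 1) → Fin n) : Fin d × Fin n × Fin n →₀ ℕ :=
  Finsupp.equivFunOnFinite.symm fun u => if edge v u.1 = u.2 then 1 else 0

lemma mon_apply (v : Fin (d + 1) → Fin n) (u : Fin d × Fin n × Fin n) :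
    mon v u = if edge v u.1 = u.2 then 1 else 0 := rfl

/-- type of the layer before a vertex -/
def bef (τ : Fin d → Bool) : Fin (d + 1) → Bool := Fin.cons false τ

/-- type of the layer after a vertex -/
def aft (τ : Fin d → Bool) : Fin (d + 1) → Bool := Fin.snoc τ false

/-- switches -/
def sw (τ : Fin d → Bool) (k : Fin (d + 1)) : Bool := bef τ k != aft τ k

lemma sw_injective : Function.Injective (sw (d := d)) := by
  intro τ τ' h
  have key : ∀ k, bef τ k = bef τ' k := by
    intro k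
    induction k using Fin.induction with
    | zero => rfl
    | succ k ih =>
      have h1 := congrFun h k.castSucc
      simp only [sw, ih, aft, Fin.snoc_castSucc] at h1
      simp only [bef, Fin.cons_succ]
      revert h1
      cases bef τ' k.castSucc <;> cases τ k <;> cases τ' k <;> simp
  ext k
  simpa [bef] using key k.succ

/-- crossover of two paths -/
def sel (τ : Fin d → Bool) (v v' : Fin (d + 1) → Fin n) (k : Fin (d + 1)) : Fin n :=
  if bef τ k then v' k else v k

lemma sel_of_edge {τ : Fin d → Bool} {v v' u : Fin (d + 1) → Fin n} (hv : v ∈ Paths d n)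
    (hu : u ∈ Paths d n)
    (h : ∀ k, edge u k = if τ k then edge v' k else edge v k) :
    u = sel τ v v' ∧ ∀ k, sw τ k → v k = v' k := by
  rw [mem_Paths] at hv hu
  have h1 : ∀ k, u k = if bef τ k then v' k else v k := by
    intro k
    induction k using Fin.cases with
    | zero => simp [bef, hv.1, hu.1]
    | succ k =>
      have := congrArg Prod.snd (h k)
      simp only [bef, Fin.cons_succ]
      split_ifs at this ⊢ <;> exact this
  have h2 : ∀ k, u k = if aft τ k then v' k else v k := by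
    intro k
    induction k using Fin.lastCases with
    | last => simp [aft, hv.2, hu.2]
    | cast k =>
      have := congrArg Prod.fst (h k)
      simp only [aft, Fin.snoc_castSucc]
      split_ifs at this ⊢ <;> exact this
  refine ⟨funext h1, fun k hk => ?_⟩
  have h3 := (h1 k).symm.trans (h2 k)
  unfold sw at hk
  revert hk h3
  cases bef τ k <;> cases aft τ k <;> simp [eq_comm]

lemma closure_cases {E : Type} [DecidableEq E] {e₁ e₂ e₃ e₄ : E}
    (h : ∀ y, ((if e₁ = y then 1 else 0) + if e₃ = y then 1 else 0 : ℕ)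
      = (if e₂ = y then 1 else 0) + if e₄ = y then 1 else 0) :
    (e₂ = e₁ ∧ e₄ = e₃) ∨ (e₂ = e₃ ∧ e₄ = e₁) := by
  have h1 := h e₁
  have h2 := h e₂
  have h3 := h e₃
  have h4 := h e₄
  grind

lemma tau_spec {E : Type} [DecidableEq E] {e₁ e₂ e₃ e₄ : E}
    (h : (e₂ = e₁ ∧ e₄ = e₃) ∨ (e₂ = e₃ ∧ e₄ = e₁)) (P : Prop) [Decidable P] {t : Bool}
    (ht : t = if P then decide (e₄ = e₁) else decide (e₂ ≠ e₁)) :
    (e₂ = if t then e₃ else e₁) ∧ e₄ = if t then e₁ else e₃ := by
  grind

lemma le_spec {E : Type} [DecidableEq E] {e₁ e₂ e₄ y : E} (P : Prop) [Decidable P] {t : Bool}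
    (ht : t = if P then decide (e₄ = e₁) else decide (e₂ ≠ e₁)) {x z : ℕ}
    (h : (P → (if e₁ = y then 1 else 0) ≤ x ∧ (if e₄ = y then 1 else 0) ≤ x) ∧
      (¬ P → (if e₂ = y then 1 else 0) ≤ z + if e₁ = y then 1 else 0)) :
    (if P then (if e₁ = y then 1 else 0) + (if t then 0 else if e₄ = y then 1 else 0) else 0) ≤ x ∧
      (if P then 0 else if t then (if e₂ = y then 1 else 0) else 0) ≤ z := by
  grind

variable (isY : Fin d → Prop) [DecidablePred isY]

/-- the transition matrix of a path -/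
noncomputable def Cm (p' l' p l : ℕ) (v : Fin (d + 1) → Fin n) :
    Matrix (St (Fin d × Fin n × Fin n) p' l') (St (Fin d × Fin n × Fin n) p l) ℝ :=
  Matrix.of fun x' x =>
    if Mv (fun u => isY u.1) (mon v) x'.1.1 x'.2.1 x.1.1 x.2.1 then 1 else 0

lemma Cm_nonneg (p' l' p l : ℕ) (v : Fin (d + 1) → Fin n) (x' x) :
    0 ≤ Cm isY p' l' p l v x' x := by
  simp only [Cm, of_apply]; split_ifs <;> norm_num

lemma Cm_le_one (p' l' p l : ℕ) (v : Fin (d + 1) → Fin n) (x' x) :
    Cm isY p' l' p l v x' x ≤ 1 := by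
  simp only [Cm, of_apply]; split_ifs <;> norm_num

lemma Cm_col (p' l' p l : ℕ) (v : Fin (d + 1) → Fin n) (x) :
    ∑ x', Cm isY p' l' p l v x' x ≤ 1 := by
  simp only [Cm, of_apply, sum_boole, Nat.cast_le_one]
  refine card_le_one.mpr fun a ha b hb => ?_
  have h1 := (mem_filter.mp ha).2
  have h2 := (mem_filter.mp hb).2
  exact Prod.ext (Subtype.ext (add_right_cancel (h1.1.trans h2.1.symm)))
    (Subtype.ext (h1.2.trans h2.2.symm))

lemma Cm_row (p' l' p l : ℕ) (v : Fin (d + 1) → Fin n) (x') :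
    ∑ x, Cm isY p' l' p l v x' x ≤ 1 := by
  simp only [Cm, of_apply, sum_boole, Nat.cast_le_one]
  refine card_le_one.mpr fun a ha b hb => ?_
  have h1 := (mem_filter.mp ha).2
  have h2 := (mem_filter.mp hb).2
  exact Prod.ext (Subtype.ext (h1.1.symm.trans h2.1))
    (Subtype.ext (add_right_cancel (h1.2.symm.trans h2.2)))

lemma sum_filter_mon (Z : Fin d → Prop) [DecidablePred Z] (v : Fin (d + 1) → Fin n) :
    ∑ u, (mon v).filter (fun u => Z u.1) u = ∑ k, if Z k then 1 else 0 := by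
  rw [Fintype.sum_prod_type]
  refine sum_congr rfl fun k _ => ?_
  simp only [Finsupp.filter_apply, mon_apply]
  split_ifs <;> simp

lemma Cm_total (p l a b : ℕ) (ha : a = ∑ k, if isY k then 1 else 0)
    (hb : b = ∑ k, if ¬ isY k then 1 else 0) (v : Fin (d + 1) → Fin n) :
    (Dm (Fin d × Fin n × Fin n) p * Dm (Fin d × Fin n × Fin n) l : ℝ)
      ≤ ∑ x, ∑ x', Cm isY p (l + b) (p + a) l v x' x := by
  rw [← Fintype.sum_prod_type']
  simp only [Cm, of_apply, sum_boole]
  rw [← Nat.cast_mul, Nat.cast_le, Dm, Dm, ← Fintype.card_prod, ← card_univ]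
  let μ : MI (Fin d × Fin n × Fin n) a := ⟨(mon v).filter fun u => isY u.1,
    mem_finsuppAntidiag.mpr ⟨by rw [ha, sum_filter_mon], subset_univ _⟩⟩
  let ν : MI (Fin d × Fin n × Fin n) b := ⟨(mon v).filter fun u => ¬ isY u.1,
    mem_finsuppAntidiag.mpr ⟨by rw [hb, sum_filter_mon fun k => ¬ isY k], subset_univ _⟩⟩
  refine card_le_card_of_injOn (fun y => ((MIadd y.1 μ, y.2), (y.1, MIadd y.2 ν)))
    (fun y _ => ?_) fun y _ y' _ h => ?_
  · exact mem_filter.mpr ⟨mem_univ _, rfl, rfl⟩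
  · simp only [Prod.mk.injEq] at h
    exact Prod.ext h.2.1 h.1.2

/-- cost of a type word -/
noncomputable def cost (L L' : ℝ) (τ : Fin d → Bool) : ℝ :=
  Real.exp (-∑ k, if isY k then (if τ k then 0 else L) else if τ k then L' else 0)

set_option maxHeartbeats 1000000 in
lemma cycle_le [NeZero d] (p l a b : ℕ) (ha : a = ∑ k, if isY k then 1 else 0) {L L' : ℝ}
    (hL : Real.exp L ≤ 1 + (Fintype.card (Fin d × Fin n × Fin n) - 1 : ℝ) / p)
    (hL' : Real.exp L' ≤ 1 + (Fintype.card (Fin d × Fin n × Fin n) - 1 : ℝ) / l)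
    {v₁ v₂ v₃ v₄ : Fin (d + 1) → Fin n} (h₁ : v₁ ∈ Paths d n) (h₂ : v₂ ∈ Paths d n)
    (h₃ : v₃ ∈ Paths d n) (h₄ : v₄ ∈ Paths d n) :
    ((Cm isY p (l + b) (p + a) l v₁)ᵀ * Cm isY p (l + b) (p + a) l v₂ *
      ((Cm isY p (l + b) (p + a) l v₃)ᵀ * Cm isY p (l + b) (p + a) l v₄)).trace
      ≤ ∑ τ, if v₂ = sel τ v₁ v₃ ∧ v₄ = sel τ v₃ v₁ ∧ ∀ k, sw τ k → v₁ k = v₃ k then
        Dm (Fin d × Fin n × Fin n) p * Dm (Fin d × Fin n × Fin n) l * cost isY L L' τ else 0 := by
  obtain ⟨T, hT, k1⟩ := trace4_le (Cm_nonneg isY p (l + b) (p + a) l v₁) (Cm_nonneg isY _ _ _ _ v₂)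
    (Cm_le_one isY _ _ _ _ v₃) (Cm_nonneg isY _ _ _ _ v₄) (Cm_col isY _ _ _ _ v₁)
    (Cm_col isY _ _ _ _ v₄) (Cm_row isY _ _ _ _ v₂)
  refine k1.trans ?_
  have hnn' : ∀ τ ∈ univ, 0 ≤ if v₂ = sel τ v₁ v₃ ∧ v₄ = sel τ v₃ v₁ ∧ ∀ k, sw τ k → v₁ k = v₃ k then
      (Dm (Fin d × Fin n × Fin n) p * Dm (Fin d × Fin n × Fin n) l : ℝ) * cost isY L L' τ
      else 0 := by
    intro τ _
    split_ifs
    · exact mul_nonneg (mul_nonneg (Nat.cast_nonneg _) (Nat.cast_nonneg _)) (Real.exp_pos _).le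
    · rfl
  rcases T.eq_empty_or_nonempty with hT0 | ⟨x₀, hx₀⟩
  · rw [hT0, card_empty, Nat.cast_zero]; exact sum_nonneg hnn'
  have hMv : ∀ x ∈ T, ∀ u : Fin d × Fin n × Fin n,
      mon v₁ u + mon v₃ u = mon v₂ u + mon v₄ u ∧
      (isY u.1 → mon v₁ u ≤ x.1.1 u ∧ mon v₄ u ≤ x.1.1 u) ∧
      (¬ isY u.1 → mon v₂ u ≤ x.2.1 u + mon v₁ u) := by
    intro x hx u
    obtain ⟨x₂, x', x₃, m1, m2, m3, m4⟩ := hT x hx
    simp only [Cm, of_apply, ne_eq, ite_eq_right_iff, one_ne_zero, imp_false,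
      not_not] at m1 m2 m3 m4
    have a1 := DFunLike.congr_fun m1.1 u
    have a2 := DFunLike.congr_fun m2.1 u
    have a3 := DFunLike.congr_fun m3.1 u
    have a4 := DFunLike.congr_fun m4.1 u
    have b1 := DFunLike.congr_fun m1.2 u
    have b2 := DFunLike.congr_fun m2.2 u
    have b3 := DFunLike.congr_fun m3.2 u
    have b4 := DFunLike.congr_fun m4.2 u
    simp only [Finsupp.add_apply, Finsupp.filter_apply] at a1 a2 a3 a4 b1 b2 b3 b4
    by_cases h : isY u.1 <;> simp only [h, if_true, if_false, not_true, not_false_iff, true_imp_iff,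
      false_imp_iff, true_and, and_true] at a1 a2 a3 a4 b1 b2 b3 b4 ⊢ <;> omega
  let τ : Fin d → Bool := fun k =>
    if isY k then decide (edge v₄ k = edge v₁ k) else decide (edge v₂ k ≠ edge v₁ k)
  have hτ : ∀ k, (edge v₂ k = if τ k then edge v₃ k else edge v₁ k) ∧
      edge v₄ k = if τ k then edge v₁ k else edge v₃ k := by
    intro k
    exact tau_spec (closure_cases fun y => by simpa only [mon_apply] using (hMv x₀ hx₀ (k, y)).1)
      (isY k) rfl
  refine le_trans ?_ (single_le_sum hnn' (mem_univ τ))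
  obtain ⟨s1, s2⟩ := sel_of_edge h₁ h₂ fun k => (hτ k).1
  rw [if_pos ⟨s1, (sel_of_edge h₃ h₄ fun k => (hτ k).2).1, s2⟩]
  let μ : Fin d × Fin n × Fin n →₀ ℕ := Finsupp.equivFunOnFinite.symm fun u =>
    if isY u.1 then mon v₁ u + if τ u.1 then 0 else mon v₄ u else 0
  let ν : Fin d × Fin n × Fin n →₀ ℕ := Finsupp.equivFunOnFinite.symm fun u =>
    if isY u.1 then 0 else if τ u.1 then mon v₂ u else 0
  let i := ∑ k, if isY k then (if τ k then 0 else 1) else 0
  let j := ∑ k, if isY k then 0 else if τ k then 1 else 0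
  have hμ : ∑ u, μ u = a + i := by
    rw [Fintype.sum_prod_type, ha, ← sum_add_distrib]
    refine sum_congr rfl fun k _ => ?_
    simp only [μ, Finsupp.equivFunOnFinite_symm_apply_apply, mon_apply]
    split_ifs <;> simp [sum_add_distrib]
  have hν : ∑ u, ν u = j := by
    rw [Fintype.sum_prod_type]
    refine sum_congr rfl fun k _ => ?_
    simp only [ν, Finsupp.equivFunOnFinite_symm_apply_apply, mon_apply]
    split_ifs <;> simp
  have hle : ∀ x ∈ T, μ ≤ x.1.1 ∧ ν ≤ x.2.1 := by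
    intro x hx
    exact ⟨fun u => (le_spec (isY u.1) (t := τ u.1) rfl (hMv x hx u).2).1,
      fun u => (le_spec (isY u.1) (t := τ u.1) rfl (hMv x hx u).2).2⟩
  obtain ⟨q, hq⟩ : ∃ q, q + i = p := by
    have h1 : ∑ u, μ u ≤ ∑ u, x₀.1.1 u := sum_le_sum fun u _ => (hle x₀ hx₀).1 u
    rw [MI_sum, hμ] at h1
    exact ⟨p - i, by omega⟩
  obtain ⟨r, hr⟩ : ∃ r, r + j = l := by
    have h1 : ∑ u, ν u ≤ ∑ u, x₀.2.1 u := sum_le_sum fun u _ => (hle x₀ hx₀).2 u
    rw [MI_sum, hν] at h1
    exact ⟨l - j, by omega⟩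
  have k2 : T.card ≤ Dm (Fin d × Fin n × Fin n) q * Dm (Fin d × Fin n × Fin n) r := by
    refine le_trans ?_ (Nat.mul_le_mul (card_ge_le (P := p + a) μ (by omega))
      (card_ge_le (P := l) ν (by omega)))
    rw [← card_product]
    exact card_le_card fun x hx => mem_product.mpr
      ⟨mem_filter.mpr ⟨mem_univ _, (hle x hx).1⟩, mem_filter.mpr ⟨mem_univ _, (hle x hx).2⟩⟩
  have k3 := Dm_down hL i q hq.le
  have k4 := Dm_down hL' j r hr.le
  rw [hq] at k3
  rw [hr] at k4
  calc (T.card : ℝ) ≤ Dm (Fin d × Fin n × Fin n) q * Dm (Fin d × Fin n × Fin n) r := by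
        rw [← Nat.cast_mul]; exact Nat.cast_le.mpr k2
    _ ≤ _ := mul_le_mul k3 k4 (Nat.cast_nonneg _)
        (mul_nonneg (Nat.cast_nonneg _) (Real.exp_pos _).le)
    _ = _ := by
      rw [mul_mul_mul_comm, ← Real.exp_add, cost]
      congr 2
      simp only [i, j, Nat.cast_sum, sum_mul, ← neg_add, ← sum_add_distrib]
      congr 1
      refine sum_congr rfl fun k _ => ?_
      split_ifs <;> simp

lemma cost_le {L L' H : ℝ} (h : Fin (d + 1) → ℝ)
    (hh : ∀ k : Fin d, h k.succ - h k.castSucc = if isY k then L else -L') (hH : ∀ k, |h k| ≤ H)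
    {a : ℕ} (ha : a = ∑ k, if isY k then 1 else 0) (τ : Fin d → Bool) :
    cost isY L L' τ ≤ Real.exp (-(a * L)) * ∏ k, if sw τ k then Real.exp H else 1 := by
  have e1 : ∏ k, (if sw τ k then Real.exp H else 1) = Real.exp (∑ k, if sw τ k then H else 0) := by
    rw [Real.exp_sum]
    exact prod_congr rfl fun k _ => by split_ifs <;> simp
  rw [e1, ← Real.exp_add, cost, Real.exp_le_exp]
  have e2 : -∑ k, (if isY k then (if τ k then 0 else L) else if τ k then L' else 0)
      = -(a * L) + ∑ k, ((if bef τ k then h k else 0) - if aft τ k then h k else 0) := by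
    rw [sum_sub_distrib, Fin.sum_univ_succ, Fin.sum_univ_castSucc (fun k => if aft τ k then h k else 0)]
    simp only [bef, aft, Fin.cons_zero, Fin.cons_succ, Fin.snoc_castSucc, Fin.snoc_last, ha,
      Nat.cast_sum, sum_mul, Bool.false_eq_true, if_false, zero_add, add_zero, ← sum_sub_distrib,
      ← sum_neg_distrib, ← sum_add_distrib]
    refine sum_congr rfl fun k _ => ?_
    have := hh k
    split_ifs at this ⊢ <;> simp <;> linarith
  rw [e2]
  refine add_le_add le_rfl (sum_le_sum fun k _ => ?_)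
  have := abs_le.mp (hH k)
  unfold sw
  cases bef τ k <;> cases aft τ k <;> simp <;> linarith

set_option maxHeartbeats 1000000 in
theorem rank_lower [NeZero d] (p l a b : ℕ) (ha : a = ∑ k, if isY k then 1 else 0)
    (hb : b = ∑ k, if ¬ isY k then 1 else 0) {L L' H : ℝ}
    (hL : Real.exp L ≤ 1 + (Fintype.card (Fin d × Fin n × Fin n) - 1 : ℝ) / p)
    (hL' : Real.exp L' ≤ 1 + (Fintype.card (Fin d × Fin n × Fin n) - 1 : ℝ) / l)
    (h : Fin (d + 1) → ℝ)
    (hh : ∀ k : Fin d, h k.succ - h k.castSucc = if isY k then L else -L') (hH : ∀ k, |h k| ≤ H)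
    (K : Type*) [Field K] [CharZero K] :
    (Dm (Fin d × Fin n × Fin n) p * Dm (Fin d × Fin n × Fin n) l : ℝ)
      ≤ (Mat (fun u : Fin d × Fin n × Fin n => isY u.1) p (l + b) (p + a) l
          (∑ v ∈ Paths d n, monomial (mon v) (1 : K))).rank * (Real.exp (-(a * L))
        * ∏ k : Fin (d + 1), (1 + if IsEnd k then Real.exp H else Real.exp H / n)) := by
  classical
  set D : ℝ := Dm (Fin d × Fin n × Fin n) p * Dm (Fin d × Fin n × Fin n) l with hD
  have hD0 : 0 < D := mul_pos (Dm_pos _) (Dm_pos _)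
  have hn : (0 : ℝ) < n := by exact_mod_cast Nat.pos_of_neZero n
  set C := Cm (n := n) isY p (l + b) (p + a) l with hC
  let N : Matrix (St (Fin d × Fin n × Fin n) p (l + b)) (St (Fin d × Fin n × Fin n) (p + a) l) ℤ :=
    Matrix.of fun x' x => ∑ v ∈ Paths d n,
      if Mv (fun u => isY u.1) (mon v) x'.1.1 x'.2.1 x.1.1 x.2.1 then 1 else 0
  have e1 : Mat (fun u : Fin d × Fin n × Fin n => isY u.1) p (l + b) (p + a) l
      (∑ v ∈ Paths d n, monomial (mon v) (1 : K)) = N.map Int.cast := by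
    ext x' x
    simp only [map_sum, Matrix.sum_apply, Mat_monomial, N, map_apply, of_apply]
    push_cast; rfl
  have e2 : N.map Int.cast = ∑ v ∈ Paths d n, C v := by
    ext x' x
    simp only [Matrix.sum_apply, N, map_apply, of_apply, hC, Cm]
    push_cast; rfl
  let W : ℝ := ∏ k : Fin (d + 1), if IsEnd k then 1 else n
  have hW : ((Paths d n).card : ℝ) = W := card_Paths
  have hW0 : 0 < W := prod_pos fun k _ => by split_ifs <;> positivity
  have t1 : W * D ≤ ((N.map (Int.cast : ℤ → ℝ))ᵀ * N.map (Int.cast : ℤ → ℝ)).trace := by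
    calc W * D = ∑ _v ∈ Paths d n, D := by rw [sum_const, nsmul_eq_mul, hW]
      _ ≤ ∑ v ∈ Paths d n, ∑ x, ∑ x', C v x' x := sum_le_sum fun v _ => Cm_total isY p l a b ha hb v
      _ ≤ _ := sum_le_trace _ C N e2
  have t2 : ((N.map (Int.cast : ℤ → ℝ))ᵀ * N.map (Int.cast : ℤ → ℝ)
      * ((N.map (Int.cast : ℤ → ℝ))ᵀ * N.map (Int.cast : ℤ → ℝ))).trace ≤ W * W * D * (Real.exp (-(a * L))
        * ∏ k : Fin (d + 1), (1 + if IsEnd k then Real.exp H else Real.exp H / n)) := by
    rw [e2, trace4_sum]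
    calc _ ≤ ∑ v₁ ∈ Paths d n, ∑ v₃ ∈ Paths d n, ∑ τ,
          if ∀ k, sw τ k → v₁ k = v₃ k then D * cost isY L L' τ else 0 := by
          refine sum_le_sum fun v₁ h₁ => sum_le_sum fun v₃ h₃ => ?_
          refine (sum_le_sum fun v₂ h₂ => sum_le_sum fun v₄ h₄ =>
            cycle_le isY p l a b ha hL hL' h₁ h₂ h₃ h₄).trans ?_
          simp only [sum_comm (t := (univ : Finset (Fin d → Bool)))]
          refine sum_le_sum fun τ _ => ?_
          simp only [ite_and, sum_ite_irrel, sum_ite_eq', sum_const_zero]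
          have : 0 ≤ D * cost isY L L' τ := mul_nonneg hD0.le (Real.exp_pos _).le
          split_ifs <;> first | rfl | exact this
      _ ≤ ∑ _v₁ ∈ Paths d n, W * D * (Real.exp (-(a * L)) * ∑ τ : Fin d → Bool,
          ∏ k, if sw τ k then (if IsEnd k then Real.exp H else Real.exp H / n) else 1) := by
          refine sum_le_sum fun v₁ h₁ => ?_
          rw [sum_comm, mul_sum, mul_sum]
          refine sum_le_sum fun τ _ => ?_
          rw [← sum_filter, sum_const, nsmul_eq_mul]
          have c1 : ((Paths d n).filter fun v₃ => ∀ k, sw τ k → v₁ k = v₃ k).card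
              ≤ ∏ k, if sw τ k ∨ IsEnd k then 1 else n := by
            refine (card_le_card (t := Fintype.piFinset fun k =>
              if sw τ k ∨ IsEnd k then {v₁ k} else univ) fun v₃ hv => ?_).trans ?_
            · obtain ⟨h3, h4⟩ := mem_filter.mp hv
              rw [mem_Paths] at h₁ h3
              refine Fintype.mem_piFinset.mpr fun k => ?_
              split_ifs with hk
              · rcases hk with hk | rfl | rfl
                · exact mem_singleton.mpr (h4 k hk).symm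
                · simp [h₁.1, h3.1]
                · simp [h₁.2, h3.2]
              · exact mem_univ _
            · rw [Fintype.card_piFinset]
              exact le_of_eq (prod_congr rfl fun k _ => by split_ifs <;> simp)
          calc _ ≤ ((∏ k, if sw τ k ∨ IsEnd k then 1 else n : ℕ) : ℝ) * (D * (Real.exp (-(a * L))
                * ∏ k, if sw τ k then Real.exp H else 1)) :=
                mul_le_mul (Nat.cast_le.mpr c1) (mul_le_mul_of_nonneg_left
                  (cost_le isY h hh hH ha τ) hD0.le)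
                  (mul_nonneg hD0.le (Real.exp_pos _).le) (Nat.cast_nonneg _)
            _ = _ := by
                have : ((∏ k, if sw τ k ∨ IsEnd k then 1 else n : ℕ) : ℝ)
                    * ∏ k, (if sw τ k then Real.exp H else 1) = W * ∏ k, if sw τ k then
                      (if IsEnd k then Real.exp H else Real.exp H / n) else 1 := by
                  rw [Nat.cast_prod, ← prod_mul_distrib, ← prod_mul_distrib]
                  refine prod_congr rfl fun k _ => ?_
                  by_cases k1 : sw τ k <;> by_cases k2 : IsEnd k <;> simp [k1, k2]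
                  field_simp
                linear_combination D * Real.exp (-(a * L)) * this
      _ ≤ _ := by
          rw [sum_const, nsmul_eq_mul, hW, ← mul_assoc, ← mul_assoc W]
          refine mul_le_mul_of_nonneg_left (mul_le_mul_of_nonneg_left ?_ (Real.exp_pos _).le)
            (by positivity)
          have : ∏ k : Fin (d + 1), (1 + if IsEnd k then Real.exp H else Real.exp H / n)
              = ∑ s : Fin (d + 1) → Bool, ∏ k, if s k then
                (if IsEnd k then Real.exp H else Real.exp H / n) else 1 := by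
            rw [← Fintype.piFinset_univ, ← prod_univ_sum (fun _ => univ) fun k (b : Bool) =>
              if b then (if IsEnd k then Real.exp H else Real.exp H / n) else 1]
            exact prod_congr rfl fun k _ => by simp [add_comm]
          rw [this, ← sum_image (g := sw) (s := univ) (f := fun s : Fin (d + 1) → Bool => ∏ k,
            if s k then (if IsEnd k then Real.exp H else Real.exp H / n) else 1)
            sw_injective.injOn]
          refine sum_le_sum_of_subset_of_nonneg (subset_univ _) fun s _ _ => ?_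
          exact prod_nonneg fun k _ => by split_ifs <;> positivity
  have t3 := trace_sq_le (N.map (Int.cast : ℤ → ℝ))
  have t4 : ((N.map (Int.cast : ℤ → ℝ)).rank : ℝ) ≤ (N.map (Int.cast : ℤ → K)).rank :=
    Nat.cast_le.mpr (rank_cast_le N)
  rw [e1]
  set X := Real.exp (-(a * L))
    * ∏ k : Fin (d + 1), (1 + if IsEnd k then Real.exp H else Real.exp H / n) with hX
  have hX0 : 0 ≤ X := mul_nonneg (Real.exp_pos _).le
    (prod_nonneg fun k _ => by split_ifs <;> positivity)
  have t5 : (W * D) ^ 2 ≤ (N.map (Int.cast : ℤ → K)).rank * (W * W * D * X) :=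
    (pow_le_pow_left₀ (by positivity) t1 2).trans (t3.trans
      ((mul_le_mul_of_nonneg_left t2 (Nat.cast_nonneg _)).trans
        (mul_le_mul_of_nonneg_right t4 (by positivity))))
  refine le_of_mul_le_mul_left ?_ (show 0 < W * W * D by positivity)
  linarith

end paths

end Crest.Agent.Depth5
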